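import Vale.Agent.P235.H606.ADefs

/-!
# P235, [MONO] (helper406): `c₁` of a minor of `G` is at most `2 c₁(G)`
-/

set_option autoImplicit false

open SimpleGraph Vale.Agent.P235 Vale.Agent.P235.H134 Vale.Agent.P235.H606

namespace Vale.Agent.P235.H406

variable {V W : Type}

open Classical in
/-- the branch set of a vertex -/
noncomputable def cc (μ : W → Set V) (v : V) : Option W :=
  if h : ∃ a, v ∈ μ a then some h.choose else none

theorem cc_eq {μ : W → Set V} (hd : ∀ a b, a ≠ b → Disjoint (μ a) (μ b)) {v : V} {a : W}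
    (h : v ∈ μ a) : cc μ v = some a := by
  have hex : ∃ a, v ∈ μ a := ⟨a, h⟩
  rw [cc, dif_pos hex]
  by_contra hne
  exact Set.disjoint_left.1 (hd _ _ fun he => hne (congrArg some he)) hex.choose_spec h

open Classical in
/-- the lengths of the edges of `G` -/
noncomputable def len (c : V → Option W) (H : SimpleGraph W) (ℓ : Sym2 W → ℝ) (ε L : ℝ)
    (e : Sym2 V) : ℝ :=
  if ∃ a, Sym2.map c e = s(some a, some a) then ε
  else if h : ∃ f ∈ H.edgeSet, Sym2.map c e = Sym2.map some f then ℓ h.choose else L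

section
variable {c : V → Option W} {H : SimpleGraph W} {ℓ : Sym2 W → ℝ} {ε L : ℝ} {u v : V} {a b : W}

theorem len_same (hu : c u = some a) (hv : c v = some a) : len c H ℓ ε L s(u, v) = ε := by
  rw [len, if_pos ⟨a, by rw [Sym2.map_mk, hu, hv]⟩]

theorem not_same (hu : c u = some a) (hv : c v = some b) (hab : a ≠ b) :
    ¬ ∃ a', Sym2.map c s(u, v) = s(some a', some a') := by
  rintro ⟨a', h⟩
  rw [Sym2.map_mk, hu, hv, Sym2.eq_iff] at h
  rcases h with ⟨h1, h2⟩ | ⟨h1, h2⟩
  · exact hab (Option.some_injective _ (h1.trans h2.symm))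
  · exact hab (Option.some_injective _ (h1.trans h2.symm))

theorem len_adj (hu : c u = some a) (hv : c v = some b) (h : H.Adj a b) :
    len c H ℓ ε L s(u, v) = ℓ s(a, b) := by
  have hex : ∃ f ∈ H.edgeSet, Sym2.map c s(u, v) = Sym2.map some f :=
    ⟨s(a, b), h, by rw [Sym2.map_mk, Sym2.map_mk, hu, hv]⟩
  rw [len, if_neg (not_same hu hv h.ne), dif_pos hex]
  congr 1
  refine Sym2.map.injective (Option.some_injective W) ?_
  rw [← hex.choose_spec.2, Sym2.map_mk, Sym2.map_mk, hu, hv]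

theorem len_none (hu : c u = none) : len c H ℓ ε L s(v, u) = L := by
  rw [len, if_neg, dif_neg]
  · rintro ⟨f, -, h⟩
    induction f with
    | _ x y =>
      rw [Sym2.map_mk, Sym2.map_mk, hu, Sym2.eq_iff] at h
      rcases h with ⟨-, h2⟩ | ⟨-, h2⟩
      · exact Option.some_ne_none _ h2.symm
      · exact Option.some_ne_none _ h2.symm
  · rintro ⟨a', h⟩
    rw [Sym2.map_mk, hu, Sym2.eq_iff] at h
    rcases h with ⟨-, h2⟩ | ⟨-, h2⟩
    · exact Option.some_ne_none _ h2.symm
    · exact Option.some_ne_none _ h2.symm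

theorem len_pos (hℓ : ∀ e ∈ H.edgeSet, 0 < ℓ e) (hε : 0 < ε) (hL : 0 < L) (e : Sym2 V) :
    0 < len c H ℓ ε L e := by
  rw [len]
  split_ifs with h1 h2
  · exact hε
  · exact hℓ _ h2.choose_spec.1
  · exact hL

theorem len_ge (hℓ : ∀ e ∈ H.edgeSet, 0 < ℓ e) (hm : IsMet (pathDist H ℓ)) (hε : 0 < ε)
    (hL : ∀ a b, pathDist H ℓ a b ≤ L) (hu : c u = some a) (hv : c v = some b) :
    pathDist H ℓ a b ≤ len c H ℓ ε L s(u, v) := by
  by_cases hab : a = b
  · subst hab
    rw [len_same hu hv, hm.self]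
    exact hε.le
  by_cases h : H.Adj a b
  · rw [len_adj hu hv h]
    exact pathDist_adj hℓ h
  · have h2 : ¬ ∃ f ∈ H.edgeSet, Sym2.map c s(u, v) = Sym2.map some f := by
      rintro ⟨f, hf, h2⟩
      have h3 : f = s(a, b) := by
        refine Sym2.map.injective (Option.some_injective W) ?_
        rw [← h2, Sym2.map_mk, Sym2.map_mk, hu, hv]
      rw [h3] at hf
      exact h hf
    rw [len, if_neg (not_same hu hv hab), dif_neg h2]
    exact hL a b

/-- the lower bound -/
theorem walk_ge {G : SimpleGraph V} (hℓ : ∀ e ∈ H.edgeSet, 0 < ℓ e)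
    (hm : IsMet (pathDist H ℓ)) (hε : 0 < ε) (hL0 : 0 < L) (hL : ∀ a b, pathDist H ℓ a b ≤ L)
    {u v : V} (p : G.Walk u v) : ∀ a b, c u = some a → c v = some b →
      pathDist H ℓ a b ≤ (p.edges.map (len c H ℓ ε L)).sum := by
  have hpos : ∀ e ∈ G.edgeSet, 0 < len c H ℓ ε L e := fun e _ => len_pos hℓ hε hL0 e
  induction p with
  | nil =>
    intro a b ha hb
    rw [Option.some_injective _ (ha.symm.trans hb), hm.self]
    simp
  | @cons u w v h p ih =>
    intro a b ha hb
    rw [SimpleGraph.Walk.edges_cons, List.map_cons, List.sum_cons]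
    cases hw : c w with
    | none =>
      rw [len_none hw]
      linarith [hL a b, walk_nonneg hpos p]
    | some a' =>
      have h1 := len_ge (L := L) hℓ hm hε hL ha hw
      have h2 := ih a' b hw hb
      linarith [hm.tri a a' b]

/-- walks inside a branch set -/
theorem walk_in {G : SimpleGraph V} {s : Set V} (hs : ∀ x ∈ s, c x = some a) {x y : s}
    (q : (G.induce s).Walk x y) :
    ((q.map (Embedding.induce s).toHom).edges.map (len c H ℓ ε L)).sum = q.length * ε := by
  induction q with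
  | nil => simp
  | @cons u w v h p ih =>
    rw [Walk.map_cons, Walk.edges_cons, List.map_cons, List.sum_cons, ih, Walk.length_cons]
    have h1 : len c H ℓ ε L s((Embedding.induce (G := G) s).toHom u,
        (Embedding.induce (G := G) s).toHom w) = ε :=
      len_same (u := u.1) (v := w.1) (hs u.1 u.2) (hs w.1 w.2)
    rw [h1]
    push_cast
    ring

end

theorem dist_in [Finite V] {G : SimpleGraph V} {ℓ' : Sym2 V → ℝ} {s : Set V} {ε : ℝ}
    (hpos : ∀ e ∈ G.edgeSet, 0 < ℓ' e) (hε : 0 < ε) (hs : (G.induce s).Connected)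
    (hlen : ∀ (x y : s) (q : (G.induce s).Walk x y),
      ((q.map (Embedding.induce s).toHom).edges.map ℓ').sum = q.length * ε)
    {x y : V} (hx : x ∈ s) (hy : y ∈ s) : pathDist G ℓ' x y ≤ (Nat.card V : ℝ) * ε := by
  classical
  have := Fintype.ofFinite V
  obtain ⟨w⟩ := hs ⟨x, hx⟩ ⟨y, hy⟩
  have h1 := pathDist_le hpos (w.toPath.1.map (Embedding.induce s).toHom)
  have h2 := hlen _ _ w.toPath.1
  have h3 : w.toPath.1.length < Fintype.card s := w.toPath.2.length_lt
  have h4 : Fintype.card s ≤ Nat.card V := by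
    rw [Nat.card_eq_fintype_card]
    exact Fintype.card_subtype_le _
  have h5 : (w.toPath.1.length : ℝ) ≤ Nat.card V := by exact_mod_cast (h3.le.trans h4)
  rw [h2] at h1
  exact h1.trans (mul_le_mul_of_nonneg_right h5 hε.le)

/-- **[MONO]** -/
theorem mono : MonoStmt := by
  intro V W _ _ G H C hC hG hH hminor hdist ℓ hℓ
  obtain ⟨μ, hconn, hdisj, hadj⟩ := hminor
  have hm := pathDist_isMet hH hℓ
  set c := cc μ with hc
  have hcμ : ∀ a, ∀ x ∈ μ a, c x = some a := fun a x hx => cc_eq hdisj hx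
  -- the constants
  obtain ⟨m, hm0, hmle⟩ : ∃ m > 0, ∀ e ∈ H.edgeSet, m ≤ ℓ e := by
    have hfin : (H.edgeSet).Finite := Set.toFinite _
    rcases Set.eq_empty_or_nonempty H.edgeSet with h | h
    · exact ⟨1, one_pos, by simp [h]⟩
    · obtain ⟨e0, he0, hmin⟩ := Set.exists_min_image _ ℓ hfin h
      exact ⟨ℓ e0, hℓ e0 he0, fun e he => hmin e he⟩
  obtain ⟨L, hL0, hL⟩ : ∃ L > 0, ∀ a b, pathDist H ℓ a b ≤ L := by
    obtain ⟨L, hL⟩ := (Set.finite_range fun p : W × W => pathDist H ℓ p.1 p.2).bddAbove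
    exact ⟨max L 1, lt_of_lt_of_le one_pos (le_max_right _ _), fun a b =>
      (hL ⟨(a, b), rfl⟩).trans (le_max_left _ _)⟩
  set N : ℝ := (Nat.card V : ℝ) with hN
  have hN0 : 0 ≤ N := Nat.cast_nonneg _
  set ε : ℝ := m / (2 * N + 1) with hεdef
  have hε : 0 < ε := by positivity
  have hNε : 2 * (N * ε) ≤ m := by
    rw [hεdef]
    have h1 : 0 < 2 * N + 1 := by positivity
    rw [show 2 * (N * (m / (2 * N + 1))) = (2 * N * m) / (2 * N + 1) by ring, div_le_iff₀ h1]
    nlinarith
  have hpos : ∀ e ∈ G.edgeSet, 0 < len c H ℓ ε L e := fun e _ => len_pos hℓ hε hL0 e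
  have hmG := pathDist_isMet hG hpos
  -- the representatives
  have hne : ∀ a, ∃ x, x ∈ μ a := fun a => by
    obtain ⟨x⟩ := (hconn a).nonempty
    exact ⟨x.1, x.2⟩
  choose r hr using hne
  have hin : ∀ a x y, x ∈ μ a → y ∈ μ a → pathDist G (len c H ℓ ε L) x y ≤ N * ε :=
    fun a x y hx hy => dist_in hpos hε (hconn a)
      (fun x y q => walk_in (fun x hx => hcμ a x hx) q) hx hy
  have hup : ∀ a b, pathDist G (len c H ℓ ε L) (r a) (r b) ≤ 2 * pathDist H ℓ a b := by
    intro a b
    have hstep : ∀ a b, H.Adj a b →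
        pathDist G (len c H ℓ ε L) (r a) (r b) ≤ 2 * ℓ s(a, b) := by
      intro a b hab
      obtain ⟨x, hx, y, hy, hxy⟩ := hadj a b hab
      have h1 := hin a (r a) x (hr a) hx
      have h2 := hin b y (r b) hy (hr b)
      have h3 := pathDist_adj hpos hxy
      rw [len_adj (hcμ a x hx) (hcμ b y hy) hab] at h3
      have h4 := hmle s(a, b) hab
      linarith [hmG.tri (r a) x (r b), hmG.tri x y (r b)]
    have hw : ∀ {a b : W} (p : H.Walk a b),
        pathDist G (len c H ℓ ε L) (r a) (r b) ≤ 2 * (p.edges.map ℓ).sum := by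
      intro a b p
      induction p with
      | nil => rw [hmG.self]; simp
      | @cons a a' b h p ih =>
        rw [SimpleGraph.Walk.edges_cons, List.map_cons, List.sum_cons]
        linarith [hmG.tri (r a) (r a') (r b), hstep a a' h]
    have : Nonempty (H.Walk a b) := hH a b
    have h5 : pathDist G (len c H ℓ ε L) (r a) (r b) / 2 ≤ pathDist H ℓ a b :=
      le_ciInf fun p => by linarith [hw p]
    linarith
  have hlow : ∀ a b, pathDist H ℓ a b ≤ pathDist G (len c H ℓ ε L) (r a) (r b) := by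
    intro a b
    have : Nonempty (G.Walk (r a) (r b)) := hG (r a) (r b)
    exact le_ciInf fun p => walk_ge hℓ hm hε hL0 hL p a b (hcμ a _ (hr a)) (hcμ b _ (hr b))
  obtain ⟨Ω, mΩ, ν, f, hf⟩ := hdist _ hpos
  refine ⟨Ω, mΩ, ν, fun a => f (r a), fun a b => ⟨(hlow a b).trans (hf _ _).1,
    (hf _ _).2.trans ?_⟩⟩
  have h6 := mul_le_mul_of_nonneg_left (hup a b) (by linarith : 0 ≤ C)
  linarith

end Vale.Agent.P235.H406
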